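import Crest.Agent.Lib.PNT.Tauber

/-!
# Lib/PNT/Main: the prime number theorem
-/

set_option autoImplicit false

open MeasureTheory Filter Topology Set Complex

namespace Crest.Agent.Lib.PNT

open ArithmeticFunction in
theorem psi_eq_sum_Icc_one (x : ℝ) : Chebyshev.psi x = ∑ k ∈ Finset.Icc 1 ⌊x⌋₊, vonMangoldt k := by
  rw [Chebyshev.psi]
  rfl

open ArithmeticFunction in
theorem LSeries_vonMangoldt_eq_integral {s : ℂ} (hs : 1 < s.re) :
    LSeries (fun n => (vonMangoldt n : ℂ)) s =
      s * ∫ x in Ioi (1 : ℝ), (Chebyshev.psi x : ℂ) * (x : ℂ) ^ (-(s + 1)) := by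
  rw [LSeries_eq_mul_integral_of_nonneg (fun n => vonMangoldt n) zero_le_one hs ?_
    (fun _ => vonMangoldt_nonneg)]
  · simp only [psi_eq_sum_Icc_one, ofReal_sum]
  · refine Asymptotics.IsBigO.of_bound (Real.log 4 + 4) (Eventually.of_forall fun n => ?_)
    have h1 := Chebyshev.psi_le_const_mul_self (x := n) (Nat.cast_nonneg n)
    have h2 := psi_eq_sum_Icc_one (n : ℝ)
    rw [Nat.floor_natCast] at h2
    rw [← h2, Real.rpow_one, Real.norm_of_nonneg (Chebyshev.psi_nonneg _),
      Real.norm_of_nonneg (Nat.cast_nonneg n)]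
    exact h1

theorem integral_psi_comp_exp (z : ℂ) :
    ∫ x in Ioi (1 : ℝ), (Chebyshev.psi x : ℂ) * (x : ℂ) ^ (-(z + 1 + 1)) =
      ∫ t in Ioi (0 : ℝ), ((Chebyshev.psi (Real.exp t) * Real.exp (-t) : ℝ) : ℂ) * cexp (-(z * t)) := by
  have himg : Real.exp '' Ioi (0 : ℝ) = Ioi 1 := by
    rw [Real.image_exp_Ioi, Real.exp_zero]
  rw [← himg, integral_image_eq_integral_abs_deriv_smul measurableSet_Ioi
    (fun t _ => (Real.hasDerivAt_exp t).hasDerivWithinAt) Real.exp_injective.injOn]
  refine setIntegral_congr_fun measurableSet_Ioi fun t _ => ?_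
  have h1 : ((Real.exp t : ℝ) : ℂ) ^ (-(z + 1 + 1)) = cexp (t * (-(z + 1 + 1))) := by
    rw [cpow_def_of_ne_zero (by exact_mod_cast (Real.exp_pos t).ne'),
      ← ofReal_log (Real.exp_pos t).le, Real.log_exp]
  simp only [abs_of_pos (Real.exp_pos t), h1, real_smul]
  push_cast
  rw [mul_left_comm, mul_assoc, ← Complex.exp_add, ← Complex.exp_add]
  congr 2
  ring

/-- Recipe: with `q = 1`, `a = 1 : ZMod 1`, `ArithmeticFunction.vonMangoldt.residueClass a = Λ` and
`Aux = LFunctionResidueClassAux a` is continuous on `re ≥ 1` (`continuousOn_LFunctionResidueClassAux`) with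
`L Λ s = Aux s + 1/(s-1)` for `re s > 1` (`eqOn_LFunctionResidueClassAux`).  `LSeries_eq_mul_integral_of_nonneg`
(`r = 1`, `Chebyshev.psi_le_const_mul_self`, `Chebyshev.psi_eq_sum_Icc`) gives
`L Λ s = s ∫_{x>1} ψ x x^{-(s+1)}`; substitute `x = exp t` (`integral_comp_exp`-type lemma, e.g.
`integral_image_eq_integral_abs_deriv_smul` with `exp '' Ioi 0 = Ioi 1`).  With `s = z + 1` the Laplace transform
of `ψ (exp t) exp (-t) - 1` is `G z = (Aux (z+1) - 1) / (z+1)` (`integral_cexp_neg_mul`-type lemma for `∫ e^{-zt} = 1/z`). -/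
theorem psi_laplace : ∃ G : ℂ → ℂ, ContinuousOn G {z | 0 ≤ z.re} ∧ ∀ z : ℂ, 0 < z.re →
    ∫ t in Ioi (0 : ℝ), ((Chebyshev.psi (Real.exp t) * Real.exp (-t) - 1 : ℝ) : ℂ) * cexp (-(z * t)) =
      G z := by
  refine ⟨fun z => (ArithmeticFunction.vonMangoldt.LFunctionResidueClassAux (1 : ZMod 1) (z + 1) - 1)
    / (z + 1), ?_, fun z hz => ?_⟩
  · refine ContinuousOn.div (ContinuousOn.sub ?_ continuousOn_const) (by fun_prop) fun z hz h0 => ?_
    · refine (ArithmeticFunction.vonMangoldt.continuousOn_LFunctionResidueClassAux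
        (1 : ZMod 1)).comp (f := fun z : ℂ => z + 1) (by fun_prop) fun z hz => ?_
      simpa using hz
    · have h1 := congrArg Complex.re h0
      have h2 : 0 ≤ z.re := hz
      simp only [add_re, one_re, zero_re] at h1
      linarith
  · have hs : 1 < (z + 1).re := by simpa using hz
    have hz0 : z ≠ 0 := fun h => by simp [h] at hz
    have hz1 : z + 1 ≠ 0 := fun h => by
      rw [h] at hs
      norm_num at hs
    have h1 := ArithmeticFunction.vonMangoldt.eqOn_LFunctionResidueClassAux
      (a := (1 : ZMod 1)) isUnit_one hs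
    have h2 : ArithmeticFunction.vonMangoldt.residueClass (1 : ZMod 1)
        = fun n => ArithmeticFunction.vonMangoldt n := by
      funext n
      have hn : n ∈ {n : ℕ | (n : ZMod 1) = 1} := Subsingleton.elim (α := ZMod 1) _ _
      rw [ArithmeticFunction.vonMangoldt.residueClass, Set.indicator_of_mem hn]
    simp only [h2, Nat.totient_one, Nat.cast_one, inv_one, add_sub_cancel_right] at h1
    rw [LSeries_vonMangoldt_eq_integral hs, integral_psi_comp_exp] at h1
    have hint : IntegrableOn (fun t : ℝ => cexp (-(z * t))) (Ioi 0) := by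
      simpa only [neg_mul] using integrableOn_exp_mul_complex_Ioi (a := -z) (by simpa using hz) 0
    have hval : ∫ t in Ioi (0 : ℝ), cexp (-(z * t)) = 1 / z := by
      have := integral_exp_mul_complex_Ioi (a := -z) (by simpa using hz) 0
      simp only [neg_mul] at this
      rw [this]
      simp [neg_div_neg_eq]
    have hint2 : IntegrableOn (fun t : ℝ =>
        ((Chebyshev.psi (Real.exp t) * Real.exp (-t) : ℝ) : ℂ) * cexp (-(z * t))) (Ioi 0) := by
      refine Integrable.bdd_mul (c := Real.log 4 + 4) hint ?_ (Eventually.of_forall fun t => ?_)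
      · refine Measurable.aestronglyMeasurable ?_
        exact measurable_ofReal.comp ((Chebyshev.psi_mono.measurable.comp Real.measurable_exp).mul
          (Real.measurable_exp.comp measurable_neg))
      · rw [norm_real, Real.norm_of_nonneg (mul_nonneg (Chebyshev.psi_nonneg _) (Real.exp_pos _).le),
          Real.exp_neg, ← div_eq_mul_inv, div_le_iff₀ (Real.exp_pos t)]
        exact Chebyshev.psi_le_const_mul_self (Real.exp_pos t).le
    have h3 : ∀ t : ℝ, ((Chebyshev.psi (Real.exp t) * Real.exp (-t) - 1 : ℝ) : ℂ) * cexp (-(z * t))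
        = ((Chebyshev.psi (Real.exp t) * Real.exp (-t) : ℝ) : ℂ) * cexp (-(z * t))
          - cexp (-(z * t)) := by
      intro t
      rw [ofReal_sub, ofReal_one, sub_mul, one_mul]
    simp only [h3]
    rw [integral_sub hint2 hint, hval, h1]
    field_simp
    ring

theorem tendsto_psi : Tendsto (fun x : ℝ => Chebyshev.psi x / x) atTop (𝓝 1) := by
  obtain ⟨G, hG, hL⟩ := psi_laplace
  exact ikehara Chebyshev.psi_mono Chebyshev.psi_nonneg
    (fun _ hx => Chebyshev.psi_le_const_mul_self hx) hG hL

/-- `Chebyshev.psi_sub_theta_le_mul_sqrt`, `Chebyshev.theta_le_psi` -/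
theorem tendsto_theta : Tendsto (fun x : ℝ => Chebyshev.theta x / x) atTop (𝓝 1) := by
  have h1 : (Chebyshev.psi - Chebyshev.theta) =o[atTop] fun x : ℝ => x := by
    refine Chebyshev.isBigO_psi_sub_theta_sqrt.trans_isLittleO ?_
    refine Asymptotics.isLittleO_of_tendsto (fun x hx => by simp [hx]) ?_
    refine (Real.tendsto_sqrt_atTop.inv_tendsto_atTop).congr fun x => ?_
    simp only [Pi.inv_apply, Real.sqrt_div_self]
  have h2 := tendsto_psi.sub h1.tendsto_div_nhds_zero
  rw [sub_zero] at h2
  refine h2.congr fun x => ?_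
  simp only [Pi.sub_apply]
  ring

/-- **Prime number theorem** (`Chebyshev.primeCounting_sub_theta_div_log_isBigO`). -/
theorem pnt : Tendsto (fun x : ℝ => (Nat.primeCounting ⌊x⌋₊ : ℝ) * Real.log x / x) atTop (𝓝 1) := by
  have h1 : (fun x : ℝ => x / Real.log x ^ 2) =o[atTop] fun x : ℝ => x / Real.log x := by
    refine Asymptotics.isLittleO_of_tendsto' ?_ ?_
    · filter_upwards [eventually_gt_atTop 1] with x hx h
      have := Real.log_pos hx
      exact absurd h (by positivity)
    · refine (Real.tendsto_log_atTop.inv_tendsto_atTop).congr' ?_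
      filter_upwards [eventually_gt_atTop 1] with x hx
      have := Real.log_pos hx
      simp only [Pi.inv_apply]
      field_simp
  have h2 := (Chebyshev.primeCounting_sub_theta_div_log_isBigO.trans_isLittleO
    h1).tendsto_div_nhds_zero.add tendsto_theta
  rw [zero_add] at h2
  refine h2.congr' ?_
  filter_upwards [eventually_gt_atTop 1] with x hx
  have := Real.log_pos hx
  field_simp
  ring

end Crest.Agent.Lib.PNT
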