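import Mathlib

/-!
# Lib/PNT/Tauber: the Wiener–Ikehara theorem for bounded functions (Fourier proof)
-/

set_option autoImplicit false

open MeasureTheory Filter Topology Set Complex

namespace Crest.Agent.Lib.PNT

/-- the triangle function -/
noncomputable def tri (y : ℝ) : ℝ := max (1 - |y|) 0

/-- the Fejér kernel -/
noncomputable def fej (t : ℝ) : ℝ := if t = 0 then 1 else 2 * (1 - Real.cos t) / t ^ 2

theorem continuous_tri : Continuous tri := by
  unfold tri
  fun_prop

theorem tri_eq_zero {y : ℝ} (hy : y ∉ Ioc (-1 : ℝ) 1) : tri y = 0 := by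
  unfold tri
  refine max_eq_right ?_
  rw [mem_Ioc, not_and_or, not_lt, not_le] at hy
  rcases hy with hy | hy
  · have := neg_le_abs y
    linarith
  · have := le_abs_self y
    linarith

theorem hasCompactSupport_tri : HasCompactSupport tri :=
  HasCompactSupport.intro (isCompact_Icc (a := (-1 : ℝ)) (b := 1)) fun _ hy =>
    tri_eq_zero fun h => hy (Ioc_subset_Icc_self h)

theorem fej_eq (t : ℝ) : (fej t : ℂ) = ∫ y : ℝ, (tri y : ℂ) * cexp (I * y * t) := by
  have hc : Continuous fun y : ℝ => (tri y : ℂ) * cexp (I * y * t) := by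
    have := continuous_tri
    fun_prop
  have h1 : ∫ y : ℝ, (tri y : ℂ) * cexp (I * y * t) =
      ∫ y in (-1 : ℝ)..1, (tri y : ℂ) * cexp (I * y * t) := by
    refine (intervalIntegral.integral_eq_integral_of_support_subset fun y hy => ?_).symm
    by_contra h
    exact hy (by simp [tri_eq_zero h])
  have h2 : ∫ y in (-1 : ℝ)..0, (tri y : ℂ) * cexp (I * y * t) =
      ∫ y in (-1 : ℝ)..0, (1 + (y : ℂ)) * cexp (I * t * y) := by
    refine intervalIntegral.integral_congr fun y hy => ?_
    rw [uIcc_of_le (by norm_num)] at hy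
    have : tri y = 1 + y := by
      unfold tri
      rw [abs_of_nonpos hy.2, max_eq_left (by linarith [hy.1])]
      ring
    simp only [this]
    push_cast
    ring_nf
  have h3 : ∫ y in (0 : ℝ)..1, (tri y : ℂ) * cexp (I * y * t) =
      ∫ y in (0 : ℝ)..1, (1 - (y : ℂ)) * cexp (I * t * y) := by
    refine intervalIntegral.integral_congr fun y hy => ?_
    rw [uIcc_of_le (by norm_num)] at hy
    have : tri y = 1 - y := by
      unfold tri
      rw [abs_of_nonneg hy.1, max_eq_left (by linarith [hy.2])]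
    simp only [this]
    push_cast
    ring_nf
  rw [h1, ← intervalIntegral.integral_add_adjacent_intervals (b := 0) (hc.intervalIntegrable _ _)
    (hc.intervalIntegrable _ _), h2, h3]
  have hid : ∀ y : ℝ, HasDerivAt (fun y : ℝ => (y : ℂ)) 1 y := fun y => Complex.ofRealCLM.hasDerivAt
  by_cases ht : t = 0
  · subst ht
    have d1 : ∀ y : ℝ, HasDerivAt (fun y : ℝ => (y : ℂ) + (y : ℂ) ^ 2 / 2)
        ((1 + (y : ℂ)) * cexp (I * (0 : ℝ) * y)) y := by
      intro y
      refine ((hid y).add (((hid y).pow 2).div_const 2)).congr_deriv ?_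
      simp
    have d2 : ∀ y : ℝ, HasDerivAt (fun y : ℝ => (y : ℂ) - (y : ℂ) ^ 2 / 2)
        ((1 - (y : ℂ)) * cexp (I * (0 : ℝ) * y)) y := by
      intro y
      refine ((hid y).sub (((hid y).pow 2).div_const 2)).congr_deriv ?_
      simp
    rw [intervalIntegral.integral_eq_sub_of_hasDerivAt (fun y _ => d1 y)
        (Continuous.intervalIntegrable (by fun_prop) _ _),
      intervalIntegral.integral_eq_sub_of_hasDerivAt (fun y _ => d2 y)
        (Continuous.intervalIntegrable (by fun_prop) _ _)]
    simp only [fej, if_true]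
    push_cast
    norm_num
  · have hc0 : I * (t : ℂ) ≠ 0 := mul_ne_zero I_ne_zero (by exact_mod_cast ht)
    have he : ∀ y : ℝ, HasDerivAt (fun y : ℝ => cexp (I * t * y)) (cexp (I * t * y) * (I * t)) y := by
      intro y
      simpa using ((hid y).const_mul (I * t)).cexp
    have d1 : ∀ y : ℝ, HasDerivAt (fun y : ℝ => (1 + (y : ℂ)) * cexp (I * t * y) / (I * t) -
        cexp (I * t * y) / (I * t) ^ 2) ((1 + (y : ℂ)) * cexp (I * t * y)) y := by
      intro y
      refine (((((hid y).const_add 1).mul (he y)).div_const (I * t)).sub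
        ((he y).div_const ((I * t) ^ 2))).congr_deriv ?_
      generalize I * (t : ℂ) = c at hc0 ⊢
      field_simp
      ring
    have d2 : ∀ y : ℝ, HasDerivAt (fun y : ℝ => (1 - (y : ℂ)) * cexp (I * t * y) / (I * t) +
        cexp (I * t * y) / (I * t) ^ 2) ((1 - (y : ℂ)) * cexp (I * t * y)) y := by
      intro y
      refine (((((hid y).const_sub 1).mul (he y)).div_const (I * t)).add
        ((he y).div_const ((I * t) ^ 2))).congr_deriv ?_
      generalize I * (t : ℂ) = c at hc0 ⊢
      field_simp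
      ring
    rw [intervalIntegral.integral_eq_sub_of_hasDerivAt (fun y _ => d1 y)
        (Continuous.intervalIntegrable (by fun_prop) _ _),
      intervalIntegral.integral_eq_sub_of_hasDerivAt (fun y _ => d2 y)
        (Continuous.intervalIntegrable (by fun_prop) _ _)]
    simp only [fej, if_neg ht]
    push_cast
    have h4 : (I * (t : ℂ)) ^ 2 = -(t : ℂ) ^ 2 := by rw [mul_pow, I_sq]; ring
    have h5 : 2 * Complex.cos t = cexp (I * t * 1) + cexp (I * t * (-1)) := by
      rw [Complex.two_cos]
      ring_nf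
    have ht' : (t : ℂ) ≠ 0 := by exact_mod_cast ht
    simp only [mul_zero, Complex.exp_zero, h4]
    rw [mul_sub, h5]
    field_simp
    ring

theorem fej_nonneg (t : ℝ) : 0 ≤ fej t := by
  unfold fej
  split_ifs
  · norm_num
  · exact div_nonneg (by linarith [Real.cos_le_one t]) (sq_nonneg t)

theorem fej_le (t : ℝ) : fej t ≤ 5 * (1 + t ^ 2)⁻¹ := by
  rw [← div_eq_mul_inv, le_div_iff₀ (by positivity)]
  unfold fej
  split_ifs with ht
  · subst ht
    norm_num
  · have h0 : 0 < t ^ 2 := by positivity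
    rw [div_mul_eq_mul_div, div_le_iff₀ h0]
    have h1 := Real.one_sub_sq_div_two_le_cos (x := t)
    have h2 := Real.neg_one_le_cos t
    nlinarith

theorem integrable_fej : Integrable fej := by
  have hm : Measurable fej := by
    unfold fej
    exact Measurable.ite (measurableSet_singleton 0) measurable_const (by fun_prop)
  refine (integrable_inv_one_add_sq.const_mul 5).mono' hm.aestronglyMeasurable
    (Eventually.of_forall fun t => ?_)
  rw [Real.norm_of_nonneg (fej_nonneg t)]
  exact fej_le t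

theorem integral_fej_pos : 0 < ∫ t, fej t := by
  rw [integral_pos_iff_support_of_nonneg fej_nonneg integrable_fej]
  refine lt_of_lt_of_le ?_ (measure_mono (s := Ioo (0 : ℝ) 1) fun t ht => ?_)
  · simp
  · have h1 : Real.cos t < Real.cos 0 :=
      Real.cos_lt_cos_of_nonneg_of_le_pi le_rfl (by linarith [ht.2, Real.pi_gt_three]) ht.1
    rw [Real.cos_zero] at h1
    have h2 : 0 < t := ht.1
    refine ne_of_gt ?_
    unfold fej
    rw [if_neg h2.ne']
    exact div_pos (by linarith) (by positivity)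

/-- A nonnegative integrable kernel of total mass one whose Fourier transform is continuous with compact
support.  Recipe: `h y = c * max (1 - |y|) 0`; for `t ≠ 0`, `∫ max (1-|y|) 0 * exp (i y t) dy = 2 (1 - cos t) / t²`
(reduce to `2 ∫_0^1 (1-y) cos (y t) dy`, antiderivative `(1-y) sin (y t)/t - cos (y t)/t²`); this is `≥ 0`,
`≤ 1` (norm of the integral) and `≤ 4/t²`, hence `≤ 8/(1+t²)`, integrable (`integrable_inv_one_add_sq`),
continuous, with positive integral; normalise with `c = 1/∫`. -/
theorem exists_kernel : ∃ (k : ℝ → ℝ) (h : ℝ → ℝ), (∀ t, 0 ≤ k t) ∧ Integrable k ∧ ∫ t, k t = 1 ∧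
    Continuous h ∧ HasCompactSupport h ∧ ∀ t : ℝ, (k t : ℂ) = ∫ y : ℝ, (h y : ℂ) * cexp (I * y * t) := by
  have hp := integral_fej_pos
  refine ⟨fun t => (∫ t, fej t)⁻¹ * fej t, fun y => (∫ t, fej t)⁻¹ * tri y,
    fun t => mul_nonneg (inv_nonneg.2 hp.le) (fej_nonneg t), integrable_fej.const_mul _, ?_,
    continuous_const.mul continuous_tri, hasCompactSupport_tri.mul_left, fun t => ?_⟩
  · rw [integral_const_mul, inv_mul_cancel₀ hp.ne']
  · simp only [ofReal_mul, mul_assoc]
    rw [integral_const_mul, fej_eq]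
    simp only [mul_assoc]

theorem conv_eps {f : ℝ → ℝ} (hf : Measurable f) {C : ℝ} (hC : ∀ t, 0 < t → |f t| ≤ C)
    {G : ℂ → ℂ}
    (hL : ∀ z : ℂ, 0 < z.re → ∫ t in Ioi (0 : ℝ), (f t : ℂ) * cexp (-(z * t)) = G z)
    {k h : ℝ → ℝ} (hh : Continuous h) (hc : HasCompactSupport h)
    (hkh : ∀ t : ℝ, (k t : ℂ) = ∫ y : ℝ, (h y : ℂ) * cexp (I * y * t)) (T : ℝ) {ε : ℝ} (hε : 0 < ε) :
    ∫ t in Ioi (0 : ℝ), ((f t * Real.exp (-ε * t) * k (T - t) : ℝ) : ℂ) =
      ∫ y : ℝ, (h y : ℂ) * G (ε + y * I) * cexp (I * y * T) := by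
  have hi : Integrable h := hh.integrable_of_hasCompactSupport hc
  have h1 : ∀ t : ℝ, ((f t * Real.exp (-ε * t) * k (T - t) : ℝ) : ℂ) =
      ∫ y : ℝ, ((f t * Real.exp (-ε * t) : ℝ) : ℂ) * ((h y : ℂ) * cexp (I * y * (T - t : ℝ))) := by
    intro t
    rw [integral_const_mul, ← hkh, ← ofReal_mul]
  simp only [h1]
  rw [integral_integral_swap]
  · refine integral_congr_ae (Eventually.of_forall fun y => ?_)
    simp only
    rw [← hL (ε + y * I) (by simpa using hε), ← integral_const_mul, ← integral_mul_const]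
    refine integral_congr_ae (Eventually.of_forall fun t => ?_)
    simp only
    push_cast
    have : cexp (-(ε : ℂ) * t) * cexp (I * y * (T - t)) =
        cexp (-((ε + y * I) * t)) * cexp (I * y * T) := by
      rw [← Complex.exp_add, ← Complex.exp_add]
      ring_nf
    linear_combination ((f t : ℂ) * h y) * this
  · have hb : Integrable (fun z : ℝ × ℝ => (C * Real.exp (-ε * z.1)) * ‖h z.2‖)
        ((volume.restrict (Ioi (0 : ℝ))).prod volume) :=
      Integrable.mul_prod (f := fun t : ℝ => C * Real.exp (-ε * t)) (g := fun y => ‖h y‖)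
        ((exp_neg_integrableOn_Ioi 0 hε).const_mul C) hi.norm
    refine hb.mono' ?_ ?_
    · refine Measurable.aestronglyMeasurable ?_
      have := hh.measurable
      unfold Function.uncurry
      fun_prop
    · rw [Measure.ae_prod_iff_ae_ae]
      · filter_upwards [ae_restrict_mem measurableSet_Ioi] with t ht
        refine Eventually.of_forall fun y => ?_
        simp only [Function.uncurry]
        have e : ‖cexp (I * y * (T - t : ℝ))‖ = 1 := by
          have : I * y * (T - t : ℝ) = ((y * (T - t) : ℝ) : ℂ) * I := by push_cast; ring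
          rw [this, Complex.norm_exp_ofReal_mul_I]
        rw [norm_mul, norm_mul, e, mul_one, norm_real, norm_real, norm_mul,
          Real.norm_of_nonneg (Real.exp_pos _).le]
        gcongr
        exact hC t ht
      · refine measurableSet_le (Measurable.norm ?_) ?_
        · have := hh.measurable
          unfold Function.uncurry
          fun_prop
        · have := hh.measurable
          fun_prop

theorem conv_zero {f : ℝ → ℝ} (hf : Measurable f) {C : ℝ} (hC : ∀ t, 0 < t → |f t| ≤ C)
    {G : ℂ → ℂ} (hG : ContinuousOn G {z | 0 ≤ z.re})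
    (hL : ∀ z : ℂ, 0 < z.re → ∫ t in Ioi (0 : ℝ), (f t : ℂ) * cexp (-(z * t)) = G z)
    {k h : ℝ → ℝ} (hk : Integrable k) (hh : Continuous h) (hc : HasCompactSupport h)
    (hkh : ∀ t : ℝ, (k t : ℂ) = ∫ y : ℝ, (h y : ℂ) * cexp (I * y * t)) (T : ℝ) :
    ((∫ t in Ioi (0 : ℝ), f t * k (T - t) : ℝ) : ℂ) =
      ∫ y : ℝ, (h y : ℂ) * G (y * I) * cexp (I * y * T) := by
  have hi : Integrable h := hh.integrable_of_hasCompactSupport hc
  have hkT : Integrable fun t => k (T - t) := hk.comp_sub_left T
  have hLl : Tendsto (fun ε : ℝ => ∫ t in Ioi (0 : ℝ), f t * Real.exp (-ε * t) * k (T - t))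
      (𝓝[>] 0) (𝓝 (∫ t in Ioi (0 : ℝ), f t * k (T - t))) := by
    refine tendsto_integral_filter_of_dominated_convergence (fun t => C * ‖k (T - t)‖) ?_ ?_ ?_ ?_
    · refine Eventually.of_forall fun ε => ?_
      exact (Measurable.aestronglyMeasurable (by fun_prop)).mul hkT.aestronglyMeasurable.restrict
    · filter_upwards [self_mem_nhdsWithin] with ε hε
      filter_upwards [ae_restrict_mem measurableSet_Ioi] with t ht
      rw [norm_mul, norm_mul, Real.norm_of_nonneg (Real.exp_pos _).le]
      refine mul_le_mul_of_nonneg_right ?_ (norm_nonneg _)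
      have h1 : Real.exp (-ε * t) ≤ 1 := by
        refine Real.exp_le_one_iff.2 ?_
        have : 0 < ε * t := mul_pos hε ht
        linarith
      exact (mul_le_of_le_one_right (norm_nonneg _) h1).trans (hC t ht)
    · exact (hkT.norm.const_mul C).integrableOn
    · refine Eventually.of_forall fun t => Tendsto.mono_left ?_ nhdsWithin_le_nhds
      have hc : Continuous fun ε : ℝ => f t * Real.exp (-ε * t) * k (T - t) := by fun_prop
      simpa using hc.tendsto 0
  have hK : IsCompact ((fun p : ℝ × ℝ => (p.1 : ℂ) + p.2 * I) '' (Icc 0 1 ×ˢ tsupport h)) :=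
    (isCompact_Icc.prod hc).image (by fun_prop)
  obtain ⟨M, hM⟩ := hK.exists_bound_of_continuousOn (hG.mono (by
    rintro _ ⟨p, hp, rfl⟩
    simpa using hp.1.1))
  have hR : Tendsto (fun ε : ℝ => ∫ y : ℝ, (h y : ℂ) * G (ε + y * I) * cexp (I * y * T))
      (𝓝[>] 0) (𝓝 (∫ y : ℝ, (h y : ℂ) * G (y * I) * cexp (I * y * T))) := by
    refine tendsto_integral_filter_of_dominated_convergence (fun y => ‖h y‖ * M) ?_ ?_ ?_ ?_
    · filter_upwards [self_mem_nhdsWithin] with ε hε
      have h1 : Continuous fun y : ℝ => G (ε + y * I) :=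
        hG.comp_continuous (by fun_prop) fun y => by simpa using le_of_lt hε
      exact (((continuous_ofReal.comp hh).mul h1).mul (by fun_prop)).aestronglyMeasurable
    · filter_upwards [Ioc_mem_nhdsGT (zero_lt_one' ℝ)] with ε hε
      refine Eventually.of_forall fun y => ?_
      have e : ‖cexp (I * y * T)‖ = 1 := by
        have : I * y * T = ((y * T : ℝ) : ℂ) * I := by push_cast; ring
        rw [this, Complex.norm_exp_ofReal_mul_I]
      rw [norm_mul, norm_mul, e, mul_one, norm_real]
      by_cases hy : y ∈ tsupport h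
      · exact mul_le_mul_of_nonneg_left (hM _ ⟨(ε, y), ⟨⟨hε.1.le, hε.2⟩, hy⟩, rfl⟩) (norm_nonneg _)
      · simp [image_eq_zero_of_notMem_tsupport hy]
    · exact hi.norm.mul_const M
    · refine Eventually.of_forall fun y => Tendsto.mul_const _ (Tendsto.const_mul _ ?_)
      have h1 : Tendsto (fun ε : ℝ => (ε : ℂ) + y * I) (𝓝[>] 0) (𝓝[{z | 0 ≤ z.re}] (y * I)) := by
        refine tendsto_nhdsWithin_iff.2 ⟨Tendsto.mono_left ?_ nhdsWithin_le_nhds, ?_⟩
        · have hc : Continuous fun ε : ℝ => (ε : ℂ) + y * I := by fun_prop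
          simpa using hc.tendsto 0
        · filter_upwards [self_mem_nhdsWithin] with ε hε
          simpa using le_of_lt hε
      exact (hG (y * I) (by simp)).tendsto.comp h1
  have hLl' := (continuous_ofReal.tendsto _).comp hLl
  refine tendsto_nhds_unique hLl' (hR.congr' ?_)
  filter_upwards [self_mem_nhdsWithin] with ε hε
  rw [← conv_eps hf hC hL hh hc hkh T hε, Function.comp_apply, integral_complex_ofReal]

/-- Recipe: for `ε > 0` Fubini (`integral_integral_swap`) gives
`∫_{t>0} f t e^{-ε t} k (T - t) = ∫ h y G (ε + i y) e^{i y T} dy`; let `ε → 0` on both sides by dominated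
convergence (`G` is bounded on the compact set `[0,1] × supp h`); then Riemann–Lebesgue
(`Real.tendsto_integral_exp_smul_cocompact` or `Real.zero_at_infty_fourier`-type lemma) as `T → ∞`. -/
theorem tendsto_conv {f : ℝ → ℝ} (hf : Measurable f) {C : ℝ} (hC : ∀ t, 0 < t → |f t| ≤ C)
    {G : ℂ → ℂ} (hG : ContinuousOn G {z | 0 ≤ z.re})
    (hL : ∀ z : ℂ, 0 < z.re → ∫ t in Ioi (0 : ℝ), (f t : ℂ) * cexp (-(z * t)) = G z)
    {k h : ℝ → ℝ} (hk : Integrable k) (hh : Continuous h) (hc : HasCompactSupport h)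
    (hkh : ∀ t : ℝ, (k t : ℂ) = ∫ y : ℝ, (h y : ℂ) * cexp (I * y * t)) :
    Tendsto (fun T : ℝ => ∫ t in Ioi (0 : ℝ), f t * k (T - t)) atTop (𝓝 0) := by
  have h1 : Tendsto (fun T : ℝ => -T / (2 * Real.pi)) atTop (cocompact ℝ) :=
    (tendsto_neg_atTop_atBot.atBot_div_const (by positivity)).mono_right atBot_le_cocompact
  have h2 := (Real.tendsto_integral_exp_smul_cocompact
    (fun y : ℝ => (h y : ℂ) * G (y * I))).comp h1
  have h3 : Tendsto (fun T : ℝ => ((∫ t in Ioi (0 : ℝ), f t * k (T - t) : ℝ) : ℂ)) atTop (𝓝 0) := by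
    refine h2.congr fun T => ?_
    rw [conv_zero hf hC hG hL hk hh hc hkh T, Function.comp_apply]
    refine integral_congr_ae (Eventually.of_forall fun y => ?_)
    simp only [Circle.smul_def, Real.fourierChar_apply, smul_eq_mul]
    rw [mul_comm]
    congr 2
    have : (Real.pi : ℂ) ≠ 0 := by exact_mod_cast Real.pi_ne_zero
    push_cast
    field_simp
  simpa [Function.comp_def] using (continuous_re.tendsto _).comp h3

/-- a kernel concentrated near the origin -/
theorem exists_kernel_conc {δ : ℝ} (hδ : 0 < δ) :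
    ∃ (k : ℝ → ℝ) (h : ℝ → ℝ), (∀ t, 0 ≤ k t) ∧ Integrable k ∧ ∫ t, k t = 1 ∧
      Continuous h ∧ HasCompactSupport h ∧
      (∀ t : ℝ, (k t : ℂ) = ∫ y : ℝ, (h y : ℂ) * cexp (I * y * t)) ∧
      1 - δ ≤ ∫ t in Ioc (-δ) δ, k t := by
  obtain ⟨k, h, h0, hk, h1, hh, hc, hkh⟩ := exists_kernel
  have h2 : Tendsto (fun a : ℝ => ∫ x in a * -δ..a * δ, k x) atTop (𝓝 1) := by
    rw [← h1]
    exact intervalIntegral_tendsto_integral hk
      (tendsto_id.atTop_mul_const_of_neg (neg_neg_of_pos hδ)) (tendsto_id.atTop_mul_const hδ)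
  obtain ⟨a, ha1, ha⟩ := ((h2.eventually (lt_mem_nhds (show 1 - δ < 1 by linarith))).and
    (eventually_gt_atTop 0)).exists
  refine ⟨fun t => a * k (a * t), fun y => h (y / a), fun t => mul_nonneg ha.le (h0 _),
    (hk.comp_mul_left' ha.ne').const_mul a, ?_, by fun_prop, ?_, fun t => ?_, ?_⟩
  · rw [integral_const_mul, Measure.integral_comp_mul_left, h1, abs_of_pos (inv_pos.2 ha),
      smul_eq_mul, mul_one, mul_inv_cancel₀ ha.ne']
  · have := hc.comp_smul (inv_ne_zero ha.ne')
    simpa only [smul_eq_mul, ← div_eq_inv_mul] using this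
  · have := Measure.integral_comp_div (fun y : ℝ => (h y : ℂ) * cexp (I * y * (a * t : ℝ))) a
    rw [abs_of_pos ha, ← hkh, real_smul] at this
    simp only [ofReal_mul] at this ⊢
    rw [← this]
    refine integral_congr_ae (Eventually.of_forall fun y => ?_)
    have ha' : (a : ℂ) ≠ 0 := by exact_mod_cast ha.ne'
    simp only
    congr 2
    push_cast
    field_simp
  · rw [← intervalIntegral.integral_of_le (by linarith), intervalIntegral.integral_const_mul,
      ← smul_eq_mul, intervalIntegral.smul_integral_comp_mul_left]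
    exact ha1.le

theorem conv_eq (g k : ℝ → ℝ) (T : ℝ) :
    ∫ t in Ioi (0 : ℝ), g t * k (T - t) = ∫ s, (Ioi (0 : ℝ)).indicator g (T - s) * k s := by
  rw [← integral_indicator measurableSet_Ioi, ← integral_sub_left_eq_self _ volume T]
  refine integral_congr_ae (Eventually.of_forall fun s => ?_)
  by_cases hs : T - s ∈ Ioi (0 : ℝ)
  · simp only [indicator_of_mem hs, sub_sub_cancel]
  · simp only [indicator_of_notMem hs, zero_mul]

theorem tendsto_conv_one {k : ℝ → ℝ} (hk : Integrable k) :
    Tendsto (fun T : ℝ => ∫ t in Ioi (0 : ℝ), (1 : ℝ) * k (T - t)) atTop (𝓝 (∫ t, k t)) := by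
  simp only [conv_eq (fun _ => (1 : ℝ)) k]
  refine tendsto_integral_filter_of_dominated_convergence (fun t => ‖k t‖) ?_ ?_ hk.norm ?_
  · refine Eventually.of_forall fun T => AEStronglyMeasurable.mul ?_ hk.aestronglyMeasurable
    exact ((measurable_const.indicator measurableSet_Ioi).comp
      (measurable_const.sub measurable_id)).aestronglyMeasurable
  · refine Eventually.of_forall fun T => Eventually.of_forall fun s => ?_
    by_cases hs : T - s ∈ Ioi (0 : ℝ)
    · simp [indicator_of_mem hs]
    · simp [indicator_of_notMem hs]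
  · refine Eventually.of_forall fun s => tendsto_const_nhds.congr' ?_
    filter_upwards [eventually_gt_atTop s] with T hT
    rw [indicator_of_mem (show T - s ∈ Ioi (0 : ℝ) from sub_pos.2 hT), one_mul]

theorem exists_small {φ : ℝ → ℝ} (hφ : Continuous φ) {c : ℝ} (h : c < φ 0) :
    ∃ δ : ℝ, 0 < δ ∧ δ < 1 ∧ c < φ δ := by
  have h1 : ∀ᶠ δ in 𝓝[>] (0 : ℝ), c < φ δ :=
    nhdsWithin_le_nhds ((hφ.tendsto 0).eventually (lt_mem_nhds h))
  obtain ⟨δ, h2, h3⟩ := (h1.and (Ioo_mem_nhdsGT (zero_lt_one' ℝ))).exists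
  exact ⟨δ, h3.1, h3.2, h2⟩

/-- **Wiener–Ikehara.**  Recipe: `F t = ψ (exp t) * exp (-t)`, `f = F - 1`.  Apply `tendsto_conv` to the kernels
`k_a t = a * k (a t)`, `h_a y = h (y / a)`; as `∫_{t>0} k_a (T - t) dt → 1`, `∫_{t>0} F t k_a (T - t) dt → 1`.
For `t ∈ [T, T + 2δ]`, `F t ≥ F T e^{-2δ}`, so `F T e^{-2δ} ∫_{-δ a}^{δ a} k ≤ 1 + o(1)` (centre `T + δ`);
for `t ∈ [T - 2δ, T]`, `F t ≤ F T e^{2δ}`, so `1 - o(1) ≤ F T e^{2δ} + C (1 - ∫_{-δ a}^{δ a} k)` (centre `T - δ`).
Choose `δ` small, then `a` large.  Finally compose with `Real.log`. -/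
theorem ikehara {ψ : ℝ → ℝ} (hm : Monotone ψ) (h0 : ∀ x, 0 ≤ ψ x) {C : ℝ}
    (hC : ∀ x, 0 ≤ x → ψ x ≤ C * x) {G : ℂ → ℂ} (hG : ContinuousOn G {z | 0 ≤ z.re})
    (hL : ∀ z : ℂ, 0 < z.re →
      ∫ t in Ioi (0 : ℝ), ((ψ (Real.exp t) * Real.exp (-t) - 1 : ℝ) : ℂ) * cexp (-(z * t)) = G z) :
    Tendsto (fun x : ℝ => ψ x / x) atTop (𝓝 1) := by
  set F : ℝ → ℝ := fun t => ψ (Real.exp t) * Real.exp (-t) with hF
  have hFm : Measurable F := (hm.measurable.comp Real.measurable_exp).mul (by fun_prop)
  have hF0 : ∀ t, 0 ≤ F t := fun t => mul_nonneg (h0 _) (Real.exp_pos _).le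
  have hFC : ∀ t, F t ≤ C := by
    intro t
    calc F t ≤ C * Real.exp t * Real.exp (-t) :=
          mul_le_mul_of_nonneg_right (hC _ (Real.exp_pos _).le) (Real.exp_pos _).le
      _ = C := by rw [mul_assoc, ← Real.exp_add, add_neg_cancel, Real.exp_zero, mul_one]
  have hC0 : 0 ≤ C := (hF0 0).trans (hFC 0)
  have hslow : ∀ s t d : ℝ, s ≤ t → t ≤ s + d → F s * Real.exp (-d) ≤ F t := by
    intro s t d h1 h2
    simp only [hF]
    rw [mul_assoc, ← Real.exp_add]
    exact mul_le_mul (hm (Real.exp_le_exp.2 h1)) (Real.exp_le_exp.2 (by linarith))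
      (Real.exp_pos _).le (h0 _)
  set Fz : ℝ → ℝ := (Ioi (0 : ℝ)).indicator F with hFz
  have hz0 : ∀ t, 0 ≤ Fz t := fun t => indicator_nonneg (fun t _ => hF0 t) t
  have hzF : ∀ t, Fz t ≤ F t := fun t => indicator_le_self' (fun t _ => hF0 t) t
  have key : ∀ δ : ℝ, 0 < δ → ∃ k : ℝ → ℝ, (∀ t, 0 ≤ k t) ∧ Integrable k ∧ ∫ t, k t = 1 ∧
      1 - δ ≤ ∫ t in Ioc (-δ) δ, k t ∧ (∀ T, Integrable fun s => Fz (T - s) * k s) ∧
      Tendsto (fun T => ∫ s, Fz (T - s) * k s) atTop (𝓝 1) := by
    intro δ hδ
    obtain ⟨k, h, hk0, hk, hk1, hh, hc, hkh, hkδ⟩ := exists_kernel_conc hδ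
    refine ⟨k, hk0, hk, hk1, hkδ, fun T => ?_, ?_⟩
    · refine hk.bdd_mul (c := C) (((hFm.indicator measurableSet_Ioi).comp
        (measurable_const.sub measurable_id)).aestronglyMeasurable)
        (Eventually.of_forall fun s => ?_)
      rw [Real.norm_of_nonneg (hz0 _)]
      exact (hzF _).trans (hFC _)
    · have h1 := tendsto_conv (f := fun t => F t - 1) (hFm.sub measurable_const) (C := C + 1)
        (fun t _ => abs_le.2 ⟨by linarith [hF0 t], by linarith [hFC t]⟩) hG hL hk hh hc hkh
      have h2 := h1.add (tendsto_conv_one hk)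
      rw [hk1, zero_add] at h2
      refine h2.congr fun T => ?_
      have hkT : Integrable fun t => k (T - t) := hk.comp_sub_left T
      rw [← conv_eq, ← integral_add]
      · refine integral_congr_ae (Eventually.of_forall fun t => ?_)
        simp only
        ring
      · refine (hkT.bdd_mul (f := fun t => F t - 1) (c := C + 1) (hFm.sub measurable_const).aestronglyMeasurable
          (Eventually.of_forall fun s => ?_)).integrableOn
        exact abs_le.2 ⟨by linarith [hF0 s], by linarith [hFC s]⟩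
      · exact (hkT.const_mul 1).integrableOn
  have main : Tendsto F atTop (𝓝 1) := by
    refine tendsto_order.2 ⟨fun b hb => ?_, fun b hb => ?_⟩
    · obtain ⟨δ, hδ, -, hb'⟩ := exists_small
        (φ := fun δ => -(b + C * δ * Real.exp (-(2 * δ)) - Real.exp (-(2 * δ)))) (c := 0)
        (by fun_prop) (by simpa using hb)
      obtain ⟨k, hk0, hk, hk1, hkδ, hi, hl⟩ := key δ hδ
      have he := Real.exp_pos (-(2 * δ))
      have h1 := ((hl.comp (tendsto_atTop_add_const_right _ (-δ) tendsto_id)).mul_const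
        (Real.exp (-(2 * δ)))).eventually
          (lt_mem_nhds (show b + C * δ * Real.exp (-(2 * δ)) < 1 * Real.exp (-(2 * δ)) by linarith))
      filter_upwards [h1] with T hT
      simp only [Function.comp_apply, id] at hT
      have h2 : (∫ s, Fz (T + -δ - s) * k s) * Real.exp (-(2 * δ)) ≤
          ∫ s, (F T * k s + C * Real.exp (-(2 * δ)) * (k s - (Ioc (-δ) δ).indicator k s)) := by
        rw [← integral_mul_const]
        refine integral_mono ((hi _).mul_const _) ((hk.const_mul _).add
          ((hk.sub (hk.indicator measurableSet_Ioc)).const_mul _)) fun s => ?_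
        simp only
        by_cases hs : s ∈ Ioc (-δ) δ
        · rw [indicator_of_mem hs, sub_self, mul_zero, add_zero]
          have h3 := hslow (T + -δ - s) T (2 * δ) (by linarith [hs.1]) (by linarith [hs.2])
          have h4 := mul_le_mul_of_nonneg_right (hzF (T + -δ - s)) he.le
          calc Fz (T + -δ - s) * k s * Real.exp (-(2 * δ))
              = Fz (T + -δ - s) * Real.exp (-(2 * δ)) * k s := by ring
            _ ≤ F T * k s := mul_le_mul_of_nonneg_right (h4.trans h3) (hk0 s)
        · rw [indicator_of_notMem hs, sub_zero]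
          have h3 := mul_le_mul_of_nonneg_right ((hzF (T + -δ - s)).trans (hFC _))
            (mul_nonneg (hk0 s) he.le)
          have h4 := mul_nonneg (hF0 T) (hk0 s)
          linarith
      have hi2 : Integrable fun s => k s - (Ioc (-δ) δ).indicator k s :=
        hk.sub (hk.indicator measurableSet_Ioc)
      rw [integral_add (hk.const_mul _) (hi2.const_mul _),
        integral_const_mul, integral_const_mul, integral_sub hk (hk.indicator measurableSet_Ioc),
        integral_indicator measurableSet_Ioc, hk1] at h2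
      have h5 : C * Real.exp (-(2 * δ)) * (1 - ∫ t in Ioc (-δ) δ, k t) ≤
          C * Real.exp (-(2 * δ)) * δ := mul_le_mul_of_nonneg_left (by linarith) (by positivity)
      linarith
    · obtain ⟨δ, hδ, hδ1, hb'⟩ := exists_small
        (φ := fun δ => b * (Real.exp (-(2 * δ)) * (1 - δ))) (c := 1) (by fun_prop) (by simpa using hb)
      obtain ⟨k, hk0, hk, hk1, hkδ, hi, hl⟩ := key δ hδ
      have he := Real.exp_pos (-(2 * δ))
      have h1 := (hl.comp (tendsto_atTop_add_const_right _ δ tendsto_id)).eventually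
        (gt_mem_nhds hb')
      filter_upwards [h1, eventually_gt_atTop 0] with T hT hT0
      simp only [Function.comp_apply, id] at hT
      have h2 : ∫ s, F T * Real.exp (-(2 * δ)) * (Ioc (-δ) δ).indicator k s ≤
          ∫ s, Fz (T + δ - s) * k s := by
        refine integral_mono ((hk.indicator measurableSet_Ioc).const_mul _) (hi _) fun s => ?_
        simp only
        by_cases hs : s ∈ Ioc (-δ) δ
        · rw [indicator_of_mem hs, hFz,
            indicator_of_mem (show T + δ - s ∈ Ioi (0 : ℝ) by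
              have := hs.2
              simp only [mem_Ioi]
              linarith)]
          exact mul_le_mul_of_nonneg_right
            (hslow T (T + δ - s) (2 * δ) (by linarith [hs.2]) (by linarith [hs.1])) (hk0 s)
        · rw [indicator_of_notMem hs, mul_zero]
          exact mul_nonneg (hz0 _) (hk0 s)
      rw [integral_const_mul, integral_indicator measurableSet_Ioc] at h2
      have h3 : F T * Real.exp (-(2 * δ)) * (1 - δ) ≤
          F T * Real.exp (-(2 * δ)) * ∫ t in Ioc (-δ) δ, k t :=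
        mul_le_mul_of_nonneg_left hkδ (mul_nonneg (hF0 T) he.le)
      have h4 : F T * (Real.exp (-(2 * δ)) * (1 - δ)) < b * (Real.exp (-(2 * δ)) * (1 - δ)) := by
        linarith
      exact lt_of_mul_lt_mul_right h4 (mul_nonneg he.le (by linarith))
  refine (main.comp Real.tendsto_log_atTop).congr' ?_
  filter_upwards [eventually_gt_atTop 0] with x hx
  simp only [Function.comp_apply, hF]
  rw [Real.exp_neg, Real.exp_log hx, div_eq_mul_inv]

end Crest.Agent.Lib.PNT
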